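import Mathlib

/-!
# Newton's identity, homogenised
-/

open Finset

namespace Vale.Agent.P181

variable {R S : Type*} [CommRing R] [CommRing S] {a : ℕ}

/-- The homogenised power sum. -/
def hpsum (U H : Fin a → R) (r : ℕ) : R := ∑ i, U i ^ r * ∏ j ∈ univ.erase i, H j ^ r

/-- The homogenised elementary symmetric function. -/
def hesymm (U H : Fin a → R) (t : ℕ) : R :=
  ∑ T ∈ univ.powersetCard t, (∏ i ∈ T, U i) * ∏ i ∈ Tᶜ, H i

lemma map_hpsum (φ : R →+* S) (U H : Fin a → R) (r : ℕ) :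
    φ (hpsum U H r) = hpsum (φ ∘ U) (φ ∘ H) r := by
  simp [hpsum]

lemma map_hesymm (φ : R →+* S) (U H : Fin a → R) (t : ℕ) :
    φ (hesymm U H t) = hesymm (φ ∘ U) (φ ∘ H) t := by
  simp [hesymm]

/-- The right hand side of Newton's identity. -/
def newtonRHS (U H : Fin a → R) (r : ℕ) : R :=
  (-1) ^ (r + 1) * r * (hesymm U H r * (∏ i, H i) ^ (r - 1)) -
    ∑ p ∈ antidiagonal r with p.1 ∈ Set.Ioo 0 r,
      (-1) ^ p.1 * (hesymm U H p.1 * hpsum U H p.2 * (∏ i, H i) ^ (p.1 - 1))

lemma map_newtonRHS (φ : R →+* S) (U H : Fin a → R) (r : ℕ) :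
    φ (newtonRHS U H r) = newtonRHS (φ ∘ U) (φ ∘ H) r := by
  simp [newtonRHS, map_hesymm, map_hpsum]

lemma newton_field {K : Type*} [Field K] (U H : Fin a → K) (hH : ∀ i, H i ≠ 0) {r : ℕ}
    (hr : 0 < r) : hpsum U H r = newtonRHS U H r := by
  set w : Fin a → K := fun i => U i / H i with hw
  set Q := ∏ i, H i with hQdef
  have hE : ∀ t, hesymm U H t = Q * ∑ T ∈ univ.powersetCard t, ∏ i ∈ T, w i := by
    intro t
    rw [hesymm, mul_sum]
    refine sum_congr rfl fun T _ => ?_
    rw [hQdef, ← prod_mul_prod_compl T, mul_comm (∏ i ∈ T, H i), mul_assoc, ← prod_mul_distrib,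
      mul_comm]
    congr 1
    exact prod_congr rfl fun i _ => by simp only [hw]; field_simp [hH i]
  have hP : ∀ s, hpsum U H s = Q ^ s * ∑ i, w i ^ s := by
    intro s
    rw [hpsum, mul_sum]
    refine sum_congr rfl fun i _ => ?_
    rw [hQdef, ← prod_pow, ← mul_prod_erase univ (fun j => H j ^ s) (mem_univ i)]
    simp only [hw, div_pow]
    field_simp [hH i]
  have hesy : ∀ t, MvPolynomial.aeval w (MvPolynomial.esymm (Fin a) K t) =
      ∑ T ∈ univ.powersetCard t, ∏ i ∈ T, w i := by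
    intro t
    simp [MvPolynomial.esymm, map_sum, map_prod]
  have h := congrArg (MvPolynomial.aeval w)
    (MvPolynomial.psum_eq_mul_esymm_sub_sum (Fin a) K r hr)
  simp only [MvPolynomial.psum, map_sub, map_mul, map_pow, map_neg, map_one, map_natCast, map_sum,
    MvPolynomial.aeval_X, hesy] at h
  rw [newtonRHS, ← hQdef, hP, h, mul_sub]
  congr 1
  · rw [hE]
    have : Q ^ r = Q * Q ^ (r - 1) := by rw [← pow_succ']; congr 1; omega
    rw [this]
    ring
  · rw [mul_sum]
    refine sum_congr rfl fun p hp => ?_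
    simp only [mem_filter, HasAntidiagonal.mem_antidiagonal, Set.mem_Ioo] at hp
    rw [hE, hP]
    have : Q ^ r = Q * Q ^ (p.1 - 1) * Q ^ p.2 := by
      rw [← pow_succ', ← pow_add]; congr 1; omega
    rw [this]
    ring

/-- **Newton's identity, homogenised.** -/
theorem newton (U H : Fin a → R) {r : ℕ} (hr : 0 < r) : hpsum U H r = newtonRHS U H r := by
  let P := MvPolynomial (Fin a ⊕ Fin a) ℤ
  let U₀ : Fin a → P := fun i => MvPolynomial.X (Sum.inl i)
  let H₀ : Fin a → P := fun i => MvPolynomial.X (Sum.inr i)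
  have h : hpsum U₀ H₀ r = newtonRHS U₀ H₀ r := by
    refine IsFractionRing.injective P (FractionRing P) ?_
    rw [map_hpsum, map_newtonRHS]
    refine newton_field _ _ (fun i => ?_) hr
    simp only [Function.comp_apply, ne_eq,
      map_eq_zero_iff _ (IsFractionRing.injective P (FractionRing P))]
    exact MvPolynomial.X_ne_zero _
  have h1 := congrArg (MvPolynomial.eval₂Hom (Int.castRingHom R) (Sum.elim U H)) h
  rw [map_hpsum, map_newtonRHS] at h1
  convert h1 using 2 <;> funext i <;> simp [U₀, H₀]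

end Vale.Agent.P181
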