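import Vale.Agent.P181.Polarize
import Vale.Agent.P181.Newton

/-!
# Row symmetric functions are products of split functions in high degree

`linF h` is the linear form `h`; `e0 h` its product over the `a` rows.  `R` is the span of the
`e0 h`, `W d` the forms of degree `d` and `N d` the row symmetric functions of degree `d` in each
row.  A row of degree at least `a` is divided by the
elementary symmetric functions; by induction on the rows, `N b ≤ R ^ b` for `b ≥ (a - 1) ^ 2`.
-/

open Finset

namespace Vale.Agent.P181.Core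

variable {a n : ℕ}

/-- A linear form as a function. -/
def linF : (Fin n → ℂ) →ₗ[ℂ] ((Fin n → ℂ) → ℂ) where
  toFun h z := ∑ j, h j * z j
  map_add' h h' := by funext z; simp [add_mul, sum_add_distrib]
  map_smul' c h := by funext z; simp [mul_sum, mul_assoc]

/-- Linear forms. -/
def V1 (n : ℕ) : Submodule ℂ ((Fin n → ℂ) → ℂ) := LinearMap.range (linF (n := n))

/-- Forms of degree `d`. -/
def W (n d : ℕ) : Submodule ℂ ((Fin n → ℂ) → ℂ) := V1 n ^ d

/-- The product of a linear form over the rows. -/
def e0 (h : Fin n → ℂ) : (Fin a → Fin n → ℂ) → ℂ := fun z => ∏ i, linF h (z i)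

/-- The span of the products of a linear form over the rows. -/
def R (a n : ℕ) : Submodule ℂ ((Fin a → Fin n → ℂ) → ℂ) :=
  Submodule.span ℂ (Set.range (e0 (a := a) (n := n)))

/-- The symmetrised product of one form per row. -/
def tens (f : Fin a → (Fin n → ℂ) → ℂ) : (Fin a → Fin n → ℂ) → ℂ :=
  fun z => ∑ σ : Equiv.Perm (Fin a), ∏ i, f i (z (σ i))

/-- Row symmetric functions of degree `d` in each row. -/
def N (a n d : ℕ) : Submodule ℂ ((Fin a → Fin n → ℂ) → ℂ) :=
  Submodule.span ℂ {G | ∃ f : Fin a → (Fin n → ℂ) → ℂ, (∀ i, f i ∈ W n d) ∧ G = tens f}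

/-! ### A single chart -/

/-- The coefficients of a polynomial lie in a submodule containing all its scalar values. -/
lemma coeff_mem {A : Type*} [CommRing A] [Algebra ℂ A] (P : Submodule ℂ A) (Q : Polynomial A)
    (h : ∀ c : ℂ, Q.eval (algebraMap ℂ A c) ∈ P) (m : ℕ) : Q.coeff m ∈ P := by
  by_contra hne
  obtain ⟨φ, hφ, hφP⟩ := Submodule.exists_dual_map_eq_bot_of_notMem hne inferInstance
  let p : Polynomial ℂ :=
    ∑ i ∈ range (Q.natDegree + 1), Polynomial.C (φ (Q.coeff i)) * Polynomial.X ^ i
  have hp : p = 0 := by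
    refine Polynomial.funext fun c => ?_
    have h0 : φ (Q.eval (algebraMap ℂ A c)) = 0 := by
      have hm := Submodule.mem_map_of_mem (f := φ) (h c)
      rw [hφP] at hm
      simpa using hm
    rw [Polynomial.eval_eq_sum_range, map_sum] at h0
    simp only [p, Polynomial.eval_finsetSum, Polynomial.eval_mul, Polynomial.eval_C,
      Polynomial.eval_pow, Polynomial.eval_X, Polynomial.eval_zero]
    refine Eq.trans (sum_congr rfl fun i _ => ?_) h0
    rw [← map_pow, mul_comm (Q.coeff i), ← Algebra.smul_def, map_smul, smul_eq_mul, mul_comm]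
  have hc := congrArg (fun q => Polynomial.coeff q m) hp
  simp only [p, Polynomial.finsetSum_coeff, Polynomial.coeff_C_mul_X_pow, Polynomial.coeff_zero,
    sum_ite_eq, mem_range] at hc
  by_cases hm : m < Q.natDegree + 1
  · rw [if_pos hm] at hc
    exact hφ hc
  · refine hφ ?_
    rw [Polynomial.coeff_eq_zero_of_natDegree_lt (by omega), map_zero]

lemma hesymm_mem (u h : Fin n → ℂ) (t : ℕ) :
    (fun z : Fin a → Fin n → ℂ => hesymm (fun i => linF u (z i)) (fun i => linF h (z i)) t) ∈
      R a n := by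
  by_cases ht : a < t
  · convert zero_mem (R a n) using 1
    funext z
    rw [hesymm, powersetCard_eq_empty.mpr (by simpa using ht), sum_empty]
    rfl
  by_contra hne
  obtain ⟨φ, hφ, hφR⟩ := Submodule.exists_dual_map_eq_bot_of_notMem hne inferInstance
  let E : ℕ → (Fin a → Fin n → ℂ) → ℂ := fun s z =>
    hesymm (fun i => linF u (z i)) (fun i => linF h (z i)) s
  have hexp : ∀ c : ℂ, e0 (a := a) (h + c • u) = ∑ s ∈ range (a + 1), c ^ s • E s := by
    intro c
    funext z
    simp only [e0, map_add, map_smul, Pi.add_apply, Pi.smul_apply, smul_eq_mul, Finset.sum_apply]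
    simp only [add_comm (linF h _), prod_add, powerset_univ]
    rw [← powerset_univ, sum_powerset, card_univ, Fintype.card_fin]
    refine sum_congr rfl fun s _ => ?_
    simp only [E, hesymm, mul_sum]
    refine sum_congr rfl fun T hT => ?_
    rw [prod_mul_distrib, prod_const, (mem_powersetCard.mp hT).2, compl_eq_univ_sdiff, mul_assoc]
  let p : Polynomial ℂ := ∑ s ∈ range (a + 1), Polynomial.C (φ (E s)) * Polynomial.X ^ s
  have hp : p = 0 := by
    refine Polynomial.funext fun c => ?_
    have h0 : φ (e0 (a := a) (h + c • u)) = 0 := by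
      have hm : φ (e0 (a := a) (h + c • u)) ∈ (R a n).map φ :=
        Submodule.mem_map_of_mem (Submodule.subset_span ⟨_, rfl⟩)
      rw [hφR] at hm
      simpa using hm
    rw [hexp, map_sum] at h0
    simp only [p, Polynomial.eval_finsetSum, Polynomial.eval_mul, Polynomial.eval_C,
      Polynomial.eval_pow, Polynomial.eval_X, Polynomial.eval_zero]
    simpa [map_smul, mul_comm] using h0
  have hc := congrArg (fun q => Polynomial.coeff q t) hp
  simp only [p, Polynomial.finsetSum_coeff, Polynomial.coeff_C_mul_X_pow, Polynomial.coeff_zero,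
    sum_ite_eq, mem_range] at hc
  rw [if_pos (by omega)] at hc
  exact hφ hc

lemma e0_mem (h : Fin n → ℂ) : e0 (a := a) h ∈ R a n := Submodule.subset_span ⟨h, rfl⟩

lemma hpsum_mem (u h : Fin n → ℂ) (r : ℕ) :
    (fun z : Fin a → Fin n → ℂ => hpsum (fun i => linF u (z i)) (fun i => linF h (z i)) r) ∈
      R a n ^ r := by
  induction r using Nat.strong_induction_on with
  | _ r ih =>
  rcases Nat.eq_zero_or_pos r with rfl | hr
  · have h1 : (fun z : Fin a → Fin n → ℂ =>
        hpsum (fun i => linF u (z i)) (fun i => linF h (z i)) 0) = (a : ℂ) • 1 := by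
      funext z
      simp [hpsum]
    rw [h1, pow_zero]
    exact Submodule.smul_mem _ _ (Submodule.one_le.mp le_rfl)
  have h1 : (fun z : Fin a → Fin n → ℂ =>
      hpsum (fun i => linF u (z i)) (fun i => linF h (z i)) r) =
      ((-1 : ℂ) ^ (r + 1) * r) •
        ((fun z : Fin a → Fin n → ℂ => hesymm (fun i => linF u (z i)) (fun i => linF h (z i)) r) *
          e0 h ^ (r - 1)) -
      ∑ p ∈ antidiagonal r with p.1 ∈ Set.Ioo 0 r, (-1 : ℂ) ^ p.1 •
        ((fun z : Fin a → Fin n → ℂ =>
            hesymm (fun i => linF u (z i)) (fun i => linF h (z i)) p.1) *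
          (fun z : Fin a → Fin n → ℂ =>
            hpsum (fun i => linF u (z i)) (fun i => linF h (z i)) p.2) * e0 h ^ (p.1 - 1)) := by
    funext z
    simp [newton _ _ hr, newtonRHS, e0, Finset.sum_apply, mul_assoc]
  rw [h1]
  refine sub_mem (Submodule.smul_mem _ _ ?_) (sum_mem fun p hp => Submodule.smul_mem _ _ ?_)
  · have := Submodule.mul_mem_mul (hesymm_mem u h r)
      (Submodule.pow_mem_pow (R a n) (e0_mem (a := a) h) (r - 1))
    rwa [← pow_succ', show r - 1 + 1 = r by omega] at this
  · simp only [mem_filter, HasAntidiagonal.mem_antidiagonal, Set.mem_Ioo] at hp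
    have := Submodule.mul_mem_mul (Submodule.mul_mem_mul (hesymm_mem u h p.1) (ih p.2 (by omega)))
      (Submodule.pow_mem_pow (R a n) (e0_mem (a := a) h) (p.1 - 1))
    rwa [← pow_succ', ← pow_add, show p.2 + 1 + (p.1 - 1) = r by omega] at this

/-! ### Dividing a row -/

section Divide

open Polynomial

variable {A : Type*} [CommRing A] [Algebra ℂ A]

/-- Dividing by `(H + t U) ^ j`: the low coefficients, times a power of `U`, come from the high
coefficients of the product. -/
lemma divide (U H : A) : ∀ (j L : ℕ) (P : Polynomial A), P.natDegree ≤ L → ∀ k ≤ L,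
    U ^ (L + j - k) * P.coeff k ∈ Submodule.span ℂ {x | ∃ m, j + k ≤ m ∧ m ≤ L + j ∧
      x = ((C H + C U * X) ^ j * P).coeff m * (U ^ (L + j - m) * H ^ (m - j - k))} := by
  intro j
  induction j with
  | zero =>
    intro L P _ k hk
    refine Submodule.subset_span ⟨k, by omega, by omega, ?_⟩
    rw [pow_zero, one_mul, show k - 0 - k = 0 by omega, pow_zero, mul_one, mul_comm]
  | succ j ih =>
    intro L P hP
    set P' := (C H + C U * X) * P with hP'
    have hP'deg : P'.natDegree ≤ L + 1 := by
      refine le_trans natDegree_mul_le ?_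
      have : (C H + C U * X).natDegree ≤ 1 := by
        rw [add_comm]; exact natDegree_linear_le
      omega
    have hQ : (C H + C U * X) ^ (j + 1) * P = (C H + C U * X) ^ j * P' := by
      rw [hP', pow_succ, mul_assoc]
    rw [hQ]
    suffices ∀ d k, k + d = L →
        U ^ (L + (j + 1) - k) * P.coeff k ∈ Submodule.span ℂ {x | ∃ m, j + 1 + k ≤ m ∧
          m ≤ L + (j + 1) ∧ x = ((C H + C U * X) ^ j * P').coeff m *
            (U ^ (L + (j + 1) - m) * H ^ (m - (j + 1) - k))} by
      intro k hk
      exact this (L - k) k (by omega)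
    intro d
    induction d with
    | zero =>
      intro k hk
      have h1 : P'.coeff (k + 1) = U * P.coeff k := by
        rw [hP', add_mul, coeff_add, coeff_C_mul, mul_assoc, coeff_C_mul, coeff_X_mul,
          coeff_eq_zero_of_natDegree_lt (p := P) (n := k + 1) (by omega), mul_zero, zero_add]
      have h2 := ih (L + 1) P' hP'deg (k + 1) (by omega)
      have e : U ^ (L + (j + 1) - k) * P.coeff k = U ^ (L + 1 + j - (k + 1)) * P'.coeff (k + 1) := by
        rw [h1, show L + (j + 1) - k = L + 1 + j - (k + 1) + 1 by omega, pow_succ, mul_assoc]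
      rw [e]
      refine Submodule.span_mono ?_ h2
      rintro x ⟨m, hm1, hm2, rfl⟩
      refine ⟨m, by omega, by omega, ?_⟩
      rw [show L + 1 + j - m = L + (j + 1) - m by omega,
        show m - j - (k + 1) = m - (j + 1) - k by omega]
    | succ d ihd =>
      intro k hk
      have h1 : P'.coeff (k + 1) = H * P.coeff (k + 1) + U * P.coeff k := by
        rw [hP', add_mul, coeff_add, coeff_C_mul, mul_assoc, coeff_C_mul, coeff_X_mul]
      have h2 : U ^ (L + (j + 1) - k) * P.coeff k = U ^ (L + 1 + j - (k + 1)) * P'.coeff (k + 1) -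
          H * (U ^ (L + (j + 1) - (k + 1)) * P.coeff (k + 1)) := by
        rw [h1, show L + 1 + j - (k + 1) = L + j - k by omega,
          show L + (j + 1) - (k + 1) = L + j - k by omega,
          show L + (j + 1) - k = L + j - k + 1 by omega, pow_succ]
        ring
      rw [h2]
      refine sub_mem ?_ ?_
      · refine Submodule.span_mono ?_ (ih (L + 1) P' hP'deg (k + 1) (by omega))
        rintro x ⟨m, hm1, hm2, rfl⟩
        refine ⟨m, by omega, by omega, ?_⟩
        rw [show L + 1 + j - m = L + (j + 1) - m by omega,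
          show m - j - (k + 1) = m - (j + 1) - k by omega]
      · have h3 := Submodule.mem_map_of_mem (f := LinearMap.mulLeft ℂ H) (ihd (k + 1) (by omega))
        rw [Submodule.map_span] at h3
        refine Submodule.span_mono ?_ h3
        rintro _ ⟨_, ⟨m, hm1, hm2, rfl⟩, rfl⟩
        refine ⟨m, by omega, hm2, ?_⟩
        rw [LinearMap.mulLeft_apply, show m - (j + 1) - k = m - (j + 1) - (k + 1) + 1 by omega,
          pow_succ]
        ring

end Divide

variable {s : ℕ}

/-- A function of the first row. -/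
def row0 : ((Fin n → ℂ) → ℂ) →ₐ[ℂ] ((Fin (s + 1) → Fin n → ℂ) → ℂ) where
  toFun g z := g (z 0)
  map_one' := rfl
  map_mul' _ _ := rfl
  map_zero' := rfl
  map_add' _ _ := rfl
  commutes' _ := rfl

/-- A function of the other rows. -/
def tailH : ((Fin s → Fin n → ℂ) → ℂ) →ₐ[ℂ] ((Fin (s + 1) → Fin n → ℂ) → ℂ) where
  toFun G z := G (Fin.tail z)
  map_one' := rfl
  map_mul' _ _ := rfl
  map_zero' := rfl
  map_add' _ _ := rfl
  commutes' _ := rfl

@[simp] lemma row0_apply (g : (Fin n → ℂ) → ℂ) (z : Fin (s + 1) → Fin n → ℂ) :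
    row0 g z = g (z 0) := rfl

@[simp] lemma tailH_apply (G : (Fin s → Fin n → ℂ) → ℂ) (z : Fin (s + 1) → Fin n → ℂ) :
    tailH G z = G (Fin.tail z) := rfl

/-- The span of the `q`-th powers of the `e0 h`. -/
def Gp (a n q : ℕ) : Submodule ℂ ((Fin a → Fin n → ℂ) → ℂ) :=
  Submodule.span ℂ (Set.range fun h : Fin n → ℂ => e0 h ^ q)

lemma linF_mem (u : Fin n → ℂ) : linF u ∈ V1 n := LinearMap.mem_range_self _ u

/-- A high power of a row times a power of the other rows is divided by the powers of all rows. -/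
lemma row0_mul_tail (q : ℕ) {D : ℕ} (hD : q * (s + 1) ≤ D) :
    (W n D).map (row0 (s := s)).toLinearMap * (Gp s n q).map tailH.toLinearMap ≤
      Gp (s + 1) n q * (W n (D - q)).map row0.toLinearMap := by
  have hbase : (W n (q * (s + 1))).map (row0 (s := s)).toLinearMap *
      (Gp s n q).map tailH.toLinearMap ≤ Gp (s + 1) n q * (W n (q * s)).map row0.toLinearMap := by
    refine (mul_le_mul' (Submodule.map_mono (pow_le_span_pow (V1 n) _)) le_rfl).trans ?_
    rw [Gp, Submodule.map_span, Submodule.map_span, Submodule.span_mul_span, Submodule.span_le]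
    rintro _ ⟨_, ⟨_, ⟨_, ⟨u, rfl⟩, rfl⟩, rfl⟩, _, ⟨_, ⟨h, rfl⟩, rfl⟩, rfl⟩
    let U : (Fin (s + 1) → Fin n → ℂ) → ℂ := row0 (linF u)
    let H : (Fin (s + 1) → Fin n → ℂ) → ℂ := row0 (linF h)
    let P : Polynomial ((Fin (s + 1) → Fin n → ℂ) → ℂ) := (∏ j : Fin s,
      (Polynomial.C (fun z => linF h (z j.succ)) +
        Polynomial.C (fun z => linF u (z j.succ)) * Polynomial.X)) ^ q
    have hP : P.natDegree ≤ q * s := by
      refine Polynomial.natDegree_pow_le.trans (Nat.mul_le_mul_left q ?_)
      refine (Polynomial.natDegree_prod_le _ _).trans ?_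
      refine (sum_le_sum (g := fun _ => 1) fun j _ => ?_).trans (by simp)
      exact (Polynomial.natDegree_add_le _ _).trans (max_le
        (le_of_eq_of_le (Polynomial.natDegree_C _) (Nat.zero_le _))
        ((Polynomial.natDegree_C_mul_le _ _).trans Polynomial.natDegree_X_le))
    have h0 : P.coeff 0 = tailH (e0 h) ^ q := by
      simp only [P, Polynomial.coeff_zero_eq_eval_zero, Polynomial.eval_pow, Polynomial.eval_prod,
        Polynomial.eval_add, Polynomial.eval_C, Polynomial.eval_mul, Polynomial.eval_X, mul_zero,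
        add_zero]
      congr 1
      funext z
      simp only [Finset.prod_apply]
      rfl
    have h1 := divide U H q (q * s) P hP 0 (Nat.zero_le _)
    rw [h0, Nat.sub_zero, show q * s + q = q * (s + 1) by ring] at h1
    simp only [AlgHom.toLinearMap_apply, map_pow, SetLike.mem_coe]
    refine Submodule.span_le.mpr ?_ h1
    rintro _ ⟨m, hm1, hm2, rfl⟩
    have hC : ((Polynomial.C H + Polynomial.C U * Polynomial.X) ^ q * P).coeff m ∈
        Gp (s + 1) n q := by
      refine coeff_mem (Gp (s + 1) n q) _ (fun c => ?_) m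
      refine Submodule.subset_span ?_
      refine ⟨h + c • u, ?_⟩
      simp only [P, ← mul_pow, Polynomial.eval_pow, Polynomial.eval_mul, Polynomial.eval_prod,
        Polynomial.eval_add, Polynomial.eval_C, Polynomial.eval_X]
      congr 1
      funext z
      simp [e0, Finset.prod_apply, U, H, Fin.prod_univ_succ, mul_comm c]
    have hW : U ^ (q * (s + 1) - m) * H ^ (m - q - 0) ∈
        (W n (q * s)).map (row0 (s := s)).toLinearMap := by
      have hmem : linF u ^ (q * (s + 1) - m) * linF h ^ (m - q - 0) ∈ W n (q * s) := ?_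
      · have h3 := Submodule.mem_map_of_mem (f := (row0 (s := s)).toLinearMap) hmem
        simpa [U, H] using h3
      have h2 := Submodule.mul_mem_mul (Submodule.pow_mem_pow (V1 n) (linF_mem u)
        (q * (s + 1) - m)) (Submodule.pow_mem_pow (V1 n) (linF_mem h) (m - q - 0))
      have hqs : q * (s + 1) - m + (m - q - 0) = q * s := by rw [Nat.mul_succ] at *; omega
      rw [← pow_add, hqs] at h2
      exact h2
    exact Submodule.mul_mem_mul hC hW
  obtain ⟨e, rfl⟩ := Nat.exists_eq_add_of_le hD
  have hW : ∀ x y, W n (x + y) = W n x * W n y := fun x y => pow_add _ _ _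
  rw [hW (q * (s + 1)) e, Submodule.map_mul, mul_right_comm]
  refine (mul_le_mul' hbase le_rfl).trans ?_
  rw [mul_assoc, ← Submodule.map_mul, ← hW]
  have hq : q ≤ q * (s + 1) := Nat.le_mul_of_pos_right q (Nat.succ_pos s)
  rw [show q * s + e = q * (s + 1) + e - q by rw [Nat.mul_succ]; omega]

/-- All products of forms, one per row. -/
def T (a n D : ℕ) : Submodule ℂ ((Fin a → Fin n → ℂ) → ℂ) :=
  Submodule.span ℂ {G | ∃ f : Fin a → (Fin n → ℂ) → ℂ, (∀ i, f i ∈ W n D) ∧
    G = fun z => ∏ i, f i (z i)}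

lemma T_succ_le (D : ℕ) :
    T (s + 1) n D ≤ (W n D).map row0.toLinearMap * (T s n D).map tailH.toLinearMap := by
  rw [T, Submodule.span_le]
  rintro _ ⟨f, hf, rfl⟩
  have hX : (fun z : Fin s → Fin n → ℂ => ∏ i, f i.succ (z i)) ∈ T s n D := by
    refine Submodule.subset_span ?_
    exact ⟨fun i => f i.succ, fun i => hf i.succ, rfl⟩
  have h := Submodule.mul_mem_mul
    (Submodule.mem_map_of_mem (f := (row0 (s := s)).toLinearMap) (hf 0))
    (Submodule.mem_map_of_mem (f := tailH.toLinearMap) hX)
  rw [SetLike.mem_coe]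
  convert h using 1
  funext z
  simp [Fin.prod_univ_succ, Fin.tail]

lemma row0_mul_T_le (D : ℕ) :
    (W n D).map row0.toLinearMap * (T s n D).map tailH.toLinearMap ≤ T (s + 1) n D := by
  rw [T, Submodule.map_span, ← Submodule.span_eq ((W n D).map row0.toLinearMap),
    Submodule.span_mul_span, Submodule.span_le]
  rintro _ ⟨_, ⟨g, hg, rfl⟩, _, ⟨_, ⟨f, hf, rfl⟩, rfl⟩, rfl⟩
  refine Submodule.subset_span ⟨Fin.cons g f, Fin.cases hg hf, ?_⟩
  funext z
  simp [Fin.prod_univ_succ, Fin.tail]

/-- Every product of forms of high degree is divisible by powers of linear forms. -/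
theorem T_le (q : ℕ) : ∀ (s D : ℕ), q * s ≤ D → T s n D ≤ Gp s n q * T s n (D - q) := by
  intro s
  induction s with
  | zero =>
    intro D _ x hx
    have h1 : (1 : (Fin 0 → Fin n → ℂ) → ℂ) ∈ Gp 0 n q := by
      refine Submodule.subset_span ⟨0, ?_⟩
      funext z
      simp [e0]
    have h2 : x ∈ T 0 n (D - q) := by
      refine Submodule.span_mono ?_ hx
      rintro _ ⟨f, -, rfl⟩
      exact ⟨f, fun i => i.elim0, rfl⟩
    simpa using Submodule.mul_mem_mul h1 h2
  | succ s ih =>
    intro D hD
    refine (T_succ_le D).trans ?_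
    refine (mul_le_mul' le_rfl (Submodule.map_mono
      (ih D (le_trans (Nat.mul_le_mul_left q (Nat.le_succ s)) hD)))).trans ?_
    rw [Submodule.map_mul, ← mul_assoc]
    refine (mul_le_mul' (row0_mul_tail q hD) le_rfl).trans ?_
    rw [mul_assoc]
    exact mul_le_mul' le_rfl (row0_mul_T_le _)

/-- One row of high degree times a split product of the others. -/
theorem row0_mul_pow : ∀ b : ℕ,
    (W n (b + s)).map (row0 (s := s)).toLinearMap * (R s n ^ b).map tailH.toLinearMap ≤
      R (s + 1) n ^ b * (W n s).map row0.toLinearMap := by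
  have hG : ∀ a, Gp a n 1 = R a n := fun a => by simp [Gp, R]
  intro b
  induction b with
  | zero =>
    rw [pow_zero, pow_zero, Submodule.map_one, mul_one, one_mul, Nat.zero_add]
  | succ b ih =>
    rw [pow_succ' (R s n), Submodule.map_mul, ← mul_assoc, ← hG s]
    refine (mul_le_mul' (row0_mul_tail 1 (D := b + 1 + s) (by omega)) le_rfl).trans ?_
    rw [hG, show b + 1 + s - 1 = b + s by omega, mul_assoc, pow_succ' (R (s + 1) n), mul_assoc]
    rw [← hG s] at ih
    exact mul_le_mul' le_rfl (by simpa only [hG] using ih)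

/-- The sum over the orderings of the rows. -/
def symz : ((Fin a → Fin n → ℂ) → ℂ) →ₗ[ℂ] ((Fin a → Fin n → ℂ) → ℂ) where
  toFun G z := ∑ σ : Equiv.Perm (Fin a), G (z ∘ σ)
  map_add' _ _ := by funext z; simp [sum_add_distrib]
  map_smul' _ _ := by funext z; simp [mul_sum]

lemma symz_mem_N {b : ℕ} {G : (Fin a → Fin n → ℂ) → ℂ} (hG : G ∈ T a n b) :
    symz G ∈ N a n b := by
  have h := Submodule.mem_map_of_mem (f := symz) hG
  rw [T, Submodule.map_span] at h
  refine Submodule.span_mono ?_ h
  rintro _ ⟨_, ⟨f, hf, rfl⟩, rfl⟩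
  exact ⟨f, hf, rfl⟩

/-- Symmetric functions, as an invariance. -/
lemma invariant_of_mem_pow : ∀ {b : ℕ} {C : (Fin a → Fin n → ℂ) → ℂ}, C ∈ R a n ^ b →
    ∀ (σ : Equiv.Perm (Fin a)) (z : Fin a → Fin n → ℂ), C (z ∘ σ) = C z := by
  intro b C hC σ z
  rw [R, Submodule.span_pow] at hC
  induction hC using Submodule.span_induction with
  | mem C hC =>
    obtain ⟨p, rfl⟩ := Set.mem_pow.mp hC
    choose h hh using fun k => (p k).2
    simp only [List.prod_ofFn, Finset.prod_apply, ← hh, e0, Function.comp_apply]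
    exact prod_congr rfl fun k _ => Equiv.prod_comp σ fun i => linF (h k) (z i)
  | zero => rfl
  | add x y _ _ hx hy => simp [hx, hy]
  | smul c x _ hx => simp [hx]

lemma symz_invariant_mul {C G : (Fin a → Fin n → ℂ) → ℂ}
    (hC : ∀ (σ : Equiv.Perm (Fin a)) (z : Fin a → Fin n → ℂ), C (z ∘ σ) = C z) :
    symz (C * G) = C * symz G := by
  funext z
  simp [symz, hC, mul_sum]

lemma symz_tail (f : (Fin n → ℂ) → ℂ) (G : (Fin s → Fin n → ℂ) → ℂ) :
    symz (row0 f * tailH (symz G)) = (s.factorial : ℂ) • symz (row0 f * tailH G) := by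
  funext z
  simp only [symz, LinearMap.coe_mk, AddHom.coe_mk, row0_apply, tailH_apply, Pi.mul_apply,
    Pi.smul_apply, smul_eq_mul]
  simp only [mul_sum]
  rw [sum_comm]
  have hτ : ∀ τ : Equiv.Perm (Fin s),
      (∑ σ : Equiv.Perm (Fin (s + 1)), f ((z ∘ σ) 0) * G (Fin.tail (z ∘ σ) ∘ τ)) =
        ∑ σ : Equiv.Perm (Fin (s + 1)), f ((z ∘ σ) 0) * G (Fin.tail (z ∘ σ)) := by
    intro τ
    let τ' : Equiv.Perm (Fin (s + 1)) := Equiv.Perm.decomposeFin.symm (0, τ)
    refine Fintype.sum_equiv (Equiv.mulRight τ') _ _ fun σ => ?_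
    have hrow : Fin.tail (z ∘ ⇑(σ * τ')) = Fin.tail (z ∘ σ) ∘ τ := by
      funext i
      simp [τ', Fin.tail]
    have hfirst : (z ∘ ⇑(σ * τ')) 0 = (z ∘ σ) 0 := by simp [τ']
    show f ((z ∘ σ) 0) * G (Fin.tail (z ∘ σ) ∘ τ) =
      f ((z ∘ ⇑(σ * τ')) 0) * G (Fin.tail (z ∘ ⇑(σ * τ')))
    rw [hrow, hfirst]
  rw [sum_congr rfl fun τ _ => hτ τ, sum_const, card_univ, Fintype.card_perm, Fintype.card_fin,
    nsmul_eq_mul, mul_sum]

lemma symz_row0_tail_mem (h : Fin n → ℂ) {g : (Fin n → ℂ) → ℂ} (hg : g ∈ W n s) :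
    symz (row0 g * tailH (e0 h) ^ s) ∈ R (s + 1) n ^ s := by
  have h1 := pow_le_span_pow (V1 n) s hg
  clear hg
  induction h1 using Submodule.span_induction with
  | mem g hg =>
    obtain ⟨_, ⟨u, rfl⟩, rfl⟩ := hg
    have heq : symz (row0 (linF u ^ s) * tailH (e0 h) ^ s) = (s.factorial : ℂ) •
        fun z : Fin (s + 1) → Fin n → ℂ =>
          hpsum (fun i => linF u (z i)) (fun i => linF h (z i)) s := by
      funext z
      let w : Fin (s + 1) → ℂ := fun i => linF u (z i) ^ s * ∏ j ∈ univ.erase i, linF h (z j) ^ s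
      have hterm : ∀ σ : Equiv.Perm (Fin (s + 1)),
          (row0 (linF u ^ s) * tailH (e0 h) ^ s : (Fin (s + 1) → Fin n → ℂ) → ℂ) (z ∘ σ) =
            w (σ 0) := by
        intro σ
        have hmap : univ.erase (σ 0) = (univ.erase (0 : Fin (s + 1))).map σ.toEmbedding := by
          rw [map_erase, map_univ_equiv]
          rfl
        simp only [w, hmap, prod_map, Equiv.coe_toEmbedding, Pi.mul_apply, Pi.pow_apply]
        congr 1
        show (∏ j : Fin s, linF h (z (σ j.succ))) ^ s = _
        rw [← prod_pow]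
        refine prod_bij' (fun j _ => j.succ) (fun j hj => j.pred (ne_of_mem_erase hj))
          ?_ ?_ ?_ ?_ ?_
        · intro j _; simp [Fin.succ_ne_zero]
        · intros; simp
        · intros; simp
        · intros; simp
        · intros; rfl
      simp only [symz, LinearMap.coe_mk, AddHom.coe_mk, hterm, Pi.smul_apply, smul_eq_mul]
      rw [← Equiv.Perm.decomposeFin.symm.sum_comp, Fintype.sum_prod_type]
      simp only [Equiv.Perm.decomposeFin_symm_apply_zero, sum_const, card_univ, Fintype.card_perm,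
        Fintype.card_fin, nsmul_eq_mul]
      rw [← mul_sum]
      rfl
    rw [heq]
    exact Submodule.smul_mem _ _ (hpsum_mem u h s)
  | zero => simp
  | add x y _ _ hx hy => rw [map_add, add_mul, map_add]; exact add_mem hx hy
  | smul c x _ hx => rw [map_smul, smul_mul_assoc, map_smul]; exact Submodule.smul_mem _ c hx

/-- The inductive step. -/
lemma symz_step {b : ℕ} (hsb : s ≤ b) {f : (Fin n → ℂ) → ℂ} (hf : f ∈ W n b) (h : Fin n → ℂ)
    {X : (Fin s → Fin n → ℂ) → ℂ} (hX : symz X ∈ R s n ^ (b - s)) :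
    symz (row0 f * tailH (e0 h ^ s * X)) ∈ R (s + 1) n ^ b := by
  have hne : (s.factorial : ℂ) ≠ 0 := by exact_mod_cast s.factorial_ne_zero
  have hinv : ∀ (σ : Equiv.Perm (Fin s)) (z : Fin s → Fin n → ℂ),
      (e0 h ^ s) (z ∘ σ) = (e0 h ^ s) z := fun σ z => by
    simp only [Pi.pow_apply, e0, Function.comp_apply]
    rw [Equiv.prod_comp σ fun i => linF h (z i)]
  refine (Submodule.smul_mem_iff _ hne).mp ?_
  rw [← symz_tail, symz_invariant_mul hinv]
  generalize symz X = C at hX
  rw [map_mul tailH, map_pow tailH,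
    show row0 f * (tailH (e0 h) ^ s * tailH C) = (row0 f * tailH C) * tailH (e0 h) ^ s by ring]
  have hf' : f ∈ W n (b - s + s) := by rwa [show b - s + s = b by omega]
  have h2 := row0_mul_pow (n := n) (s := s) (b - s) (Submodule.mul_mem_mul
    (Submodule.mem_map_of_mem (f := (row0 (s := s)).toLinearMap) hf')
    (Submodule.mem_map_of_mem (f := tailH.toLinearMap) hX))
  simp only [AlgHom.toLinearMap_apply] at h2
  generalize row0 f * tailH C = F at h2 ⊢
  induction h2 using Submodule.mul_induction_on' with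
  | mem_mul_mem D hD g hg =>
    obtain ⟨g', hg', rfl⟩ := Submodule.mem_map.mp hg
    rw [AlgHom.toLinearMap_apply, mul_assoc, symz_invariant_mul (invariant_of_mem_pow hD)]
    have h3 := Submodule.mul_mem_mul hD (symz_row0_tail_mem h hg')
    rwa [← pow_add, show b - s + s = b by omega] at h3
  | add x _ y _ hx hy => rw [add_mul, map_add]; exact add_mem hx hy

/-- **For `b ≥ (a - 1) ^ 2` every row symmetric function is a combination of split products.** -/
theorem symz_mem : ∀ (a b : ℕ), (a - 1) ^ 2 ≤ b → ∀ G ∈ T a n b, symz G ∈ R a n ^ b := by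
  intro a
  induction a with
  | zero =>
    intro b _ G _
    have h1 : (1 : (Fin 0 → Fin n → ℂ) → ℂ) ∈ R 0 n ^ b := by
      have := Submodule.pow_mem_pow (R 0 n) (e0_mem (a := 0) (0 : Fin n → ℂ)) b
      convert this using 1
      funext z
      simp [e0]
    have h2 : symz G = (symz G finZeroElim) • (1 : (Fin 0 → Fin n → ℂ) → ℂ) := by
      funext z
      simp [Subsingleton.elim z finZeroElim]
    rw [h2]
    exact Submodule.smul_mem _ _ h1
  | succ s ih =>
    intro b hb G hG
    have hsb : s * s ≤ b := by simpa [pow_two] using hb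
    have h0 : s ≤ b := (Nat.le_mul_self s).trans hsb
    have hrec : (s - 1) ^ 2 ≤ b - s := by
      rcases s with _ | t
      · simp
      · simp only [Nat.add_sub_cancel, pow_two] at *
        have : (t + 1) * (t + 1) = t * t + 2 * t + 1 := by ring
        omega
    have h1 := (T_succ_le b).trans (mul_le_mul' le_rfl (Submodule.map_mono (T_le s s b hsb))) hG
    clear hG
    induction h1 using Submodule.mul_induction_on' with
    | mem_mul_mem x hx y hy =>
      obtain ⟨f, hf, rfl⟩ := Submodule.mem_map.mp hx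
      obtain ⟨Y, hY, rfl⟩ := Submodule.mem_map.mp hy
      simp only [AlgHom.toLinearMap_apply]
      clear hx hy
      induction hY using Submodule.mul_induction_on' with
      | mem_mul_mem E hE X hX =>
        have hX' := ih (b - s) hrec X hX
        rw [Gp] at hE
        induction hE using Submodule.span_induction with
        | mem E hE =>
          obtain ⟨h, rfl⟩ := hE
          exact symz_step h0 hf h hX'
        | zero => simp
        | add p q _ _ hp hq => rw [add_mul, map_add, mul_add, map_add]; exact add_mem hp hq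
        | smul c p _ hp =>
          rw [smul_mul_assoc, map_smul, mul_smul_comm, map_smul]
          exact Submodule.smul_mem _ c hp
      | add p _ q _ hp hq => rw [map_add, mul_add, map_add]; exact add_mem hp hq
    | add p _ q _ hp hq => rw [map_add]; exact add_mem hp hq

theorem N_le_R {b : ℕ} (hb : (a - 1) ^ 2 ≤ b) : N a n b ≤ R a n ^ b := by
  rw [N, Submodule.span_le]
  rintro _ ⟨f, hf, rfl⟩
  exact symz_mem a b hb (fun z => ∏ i, f i (z i)) (Submodule.subset_span ⟨f, hf, rfl⟩)

/-- The target: the permanent of the `b`-th powers. -/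
theorem permanent_mem {b : ℕ} (hb : (a - 1) ^ 2 ≤ b) :
    (fun z : Fin a → Fin a → ℂ => ∑ σ : Equiv.Perm (Fin a), ∏ i, z (σ i) i ^ b) ∈
      R a a ^ b := by
  refine N_le_R hb (Submodule.subset_span
    ⟨fun i => linF (Pi.single i 1) ^ b, fun i => Submodule.pow_mem_pow (V1 a) (linF_mem _) b, ?_⟩)
  funext z
  simp [tens, linF, Pi.single_apply]

end Vale.Agent.P181.Core
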