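import Vale.Agent.P181.Polarize

/-!
# Symmetric powers

`SymPower k M` is the degree `k` part of the symmetric algebra of `M`, the `k`-th power of the
image of `M`.
-/

open Finset

namespace Vale.Agent.P181

variable (k : ℕ) (M : Type) [AddCommGroup M] [Module ℂ M]

/-- The symmetric power: the span of products of `k` vectors in the symmetric algebra. -/
def symPart : Submodule ℂ (SymmetricAlgebra ℂ M) := LinearMap.range (SymmetricAlgebra.ι ℂ M) ^ k

/-- The symmetric power as a type. -/
def SymPower : Type := symPart k M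

/-- Addition of the symmetric power, that of the symmetric algebra. -/
noncomputable instance instAddCommGroupSymPower : AddCommGroup (SymPower k M) :=
  (symPart k M).addCommGroup

/-- Scalar multiplication of the symmetric power. -/
noncomputable instance instModuleSymPower : Module ℂ (SymPower k M) := (symPart k M).module

/-- The inclusion in the symmetric algebra. -/
noncomputable def incl : SymPower k M →ₗ[ℂ] SymmetricAlgebra ℂ M := (symPart k M).subtype

variable {k M}

lemma incl_injective : Function.Injective (incl k M) := Subtype.val_injective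

lemma incl_mem (x : SymPower k M) : incl k M x ∈ symPart k M := x.2

/-- The product of `k` vectors. -/
noncomputable def prodMk (w : Fin k → M) : SymPower k M :=
  ⟨∏ i, SymmetricAlgebra.ι ℂ M (w i), by
    have h := prod_mem_pow (LinearMap.range (SymmetricAlgebra.ι ℂ M)) univ
      (fun i => SymmetricAlgebra.ι ℂ M (w i)) fun i _ => LinearMap.mem_range_self _ _
    rwa [card_univ, Fintype.card_fin] at h⟩

/-- The power of a vector. -/
noncomputable def powMk (k : ℕ) (u : M) : SymPower k M := prodMk fun _ => u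

@[simp] lemma incl_prodMk (w : Fin k → M) :
    incl k M (prodMk w) = ∏ i, SymmetricAlgebra.ι ℂ M (w i) := rfl

@[simp] lemma incl_powMk (u : M) :
    incl k M (powMk k u) = SymmetricAlgebra.ι ℂ M u ^ k := by
  simp [powMk]

variable {N : Type} [AddCommGroup N] [Module ℂ N]

/-- Functoriality on the symmetric algebras. -/
noncomputable def algMap (g : M →ₗ[ℂ] N) : SymmetricAlgebra ℂ M →ₐ[ℂ] SymmetricAlgebra ℂ N :=
  SymmetricAlgebra.lift (SymmetricAlgebra.ι ℂ N ∘ₗ g)

lemma algMap_mem (k : ℕ) (g : M →ₗ[ℂ] N) {x : SymmetricAlgebra ℂ M} (hx : x ∈ symPart k M) :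
    algMap g x ∈ symPart k N := by
  have h : (symPart k M).map (algMap g).toLinearMap ≤ symPart k N := by
    rw [symPart, Submodule.map_pow]
    refine pow_le_pow_left' ?_ k
    rw [Submodule.map_le_iff_le_comap]
    rintro _ ⟨u, rfl⟩
    exact ⟨g u, by simp [algMap]⟩
  exact h (Submodule.mem_map_of_mem hx)

/-- Functoriality: `v₁ ⋯ vₖ ↦ g v₁ ⋯ g vₖ`. -/
noncomputable def SymPower.map (k : ℕ) (g : M →ₗ[ℂ] N) : SymPower k M →ₗ[ℂ] SymPower k N :=
  ((algMap g).toLinearMap ∘ₗ incl k M).codRestrict (symPart k N) fun x => algMap_mem k g x.2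

lemma incl_map (g : M →ₗ[ℂ] N) (x : SymPower k M) :
    incl k N (SymPower.map k g x) = algMap g (incl k M x) := rfl

lemma map_prodMk (g : M →ₗ[ℂ] N) (w : Fin k → M) :
    SymPower.map k g (prodMk w) = prodMk fun i => g (w i) := by
  refine incl_injective ?_
  rw [incl_map]
  simp [algMap]

lemma map_powMk (g : M →ₗ[ℂ] N) (u : M) : SymPower.map k g (powMk k u) = powMk k (g u) :=
  map_prodMk g _

/-- The products of vectors from a spanning set span. -/
theorem span_prodMk {S : Set M} (hS : Submodule.span ℂ S = ⊤) :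
    Submodule.span ℂ {x : SymPower k M | ∃ w : Fin k → M, (∀ i, w i ∈ S) ∧ x = prodMk w} = ⊤ := by
  refine Submodule.map_injective_of_injective (f := incl k M) incl_injective ?_
  have h2 : (⊤ : Submodule ℂ (SymPower k M)).map (incl k M) = symPart k M := by
    ext x
    constructor
    · rintro ⟨y, -, rfl⟩; exact y.2
    · intro hx; exact ⟨⟨x, hx⟩, trivial, rfl⟩
  rw [h2, Submodule.map_span, symPart, LinearMap.range_eq_map, ← hS, Submodule.map_span,
    Submodule.span_pow]
  congr 1
  ext x
  rw [Set.mem_pow]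
  constructor
  · rintro ⟨_, ⟨w, hw, rfl⟩, rfl⟩
    exact ⟨fun i => ⟨SymmetricAlgebra.ι ℂ M (w i), _, hw i, rfl⟩,
      by rw [List.prod_ofFn]; exact (incl_prodMk w).symm⟩
  · rintro ⟨f, rfl⟩
    choose w hw hw' using fun i => (f i).2
    refine ⟨prodMk w, ⟨w, hw, rfl⟩, ?_⟩
    rw [List.prod_ofFn, incl_prodMk]
    exact prod_congr rfl fun i _ => hw' i

/-- The powers span. -/
theorem span_powMk : Submodule.span ℂ (Set.range (powMk (M := M) k)) = ⊤ := by
  refine eq_top_iff.mpr fun x _ => ?_
  have h := pow_le_span_pow (LinearMap.range (SymmetricAlgebra.ι ℂ M)) k x.2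
  have hle : Submodule.span ℂ ((fun u => u ^ k) '' (LinearMap.range (SymmetricAlgebra.ι ℂ M) :
      Set (SymmetricAlgebra ℂ M))) ≤ (Submodule.span ℂ (Set.range (powMk (M := M) k))).map
        (incl k M) := by
    rw [Submodule.span_le]
    rintro _ ⟨_, ⟨u, rfl⟩, rfl⟩
    exact ⟨powMk k u, Submodule.subset_span ⟨u, rfl⟩, incl_powMk u⟩
  obtain ⟨y, hy, hyx⟩ := hle h
  rwa [← incl_injective (show incl k M y = incl k M x from hyx)]

instance instFiniteSymPower [FiniteDimensional ℂ M] : Module.Finite ℂ (SymPower k M) :=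
  Module.Finite.iff_fg.mpr (Submodule.FG.pow (by
    rw [LinearMap.range_eq_map]
    exact Module.Finite.fg_top.map _) k)

/-- The evaluation at a functional. -/
noncomputable def evalAt (k : ℕ) (φ : Module.Dual ℂ M) : Module.Dual ℂ (SymPower k M) :=
  (SymmetricAlgebra.lift φ).toLinearMap ∘ₗ incl k M

@[simp] lemma evalAt_prodMk (φ : Module.Dual ℂ M) (w : Fin k → M) :
    evalAt k φ (prodMk w) = ∏ i, φ (w i) := by
  simp [evalAt]

@[simp] lemma evalAt_powMk (φ : Module.Dual ℂ M) (u : M) : evalAt k φ (powMk k u) = φ u ^ k := by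
  simp [powMk]

/-- Functionals on a symmetric power agree if they agree on powers. -/
lemma ext_powMk {P : Type} [AddCommGroup P] [Module ℂ P] {F G : SymPower k M →ₗ[ℂ] P}
    (h : ∀ u, F (powMk k u) = G (powMk k u)) : F = G := by
  refine LinearMap.ext_on_range span_powMk h

/-- The evaluations separate points. -/
theorem eq_zero_of_evalAt [FiniteDimensional ℂ M] (x : SymPower k M)
    (h : ∀ φ : Module.Dual ℂ M, evalAt k φ x = 0) : x = 0 := by
  refine incl_injective ?_
  rw [map_zero]
  let b := Module.finBasis ℂ M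
  let e := SymmetricAlgebra.equivMvPolynomial b
  refine e.injective ?_
  rw [map_zero]
  refine MvPolynomial.funext fun c => ?_
  rw [map_zero]
  have hc := h (b.constr ℂ c)
  have hcomp : (MvPolynomial.aeval c).comp e.toAlgHom =
      SymmetricAlgebra.lift (b.constr ℂ c) := by
    refine SymmetricAlgebra.algHom_ext (b.ext fun i => ?_)
    simp [e]
  rw [← hc, evalAt, LinearMap.comp_apply, AlgHom.toLinearMap_apply, ← hcomp]
  rfl

/-- The evaluations span the dual. -/
theorem span_evalAt [FiniteDimensional ℂ M] :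
    Submodule.span ℂ (Set.range (evalAt (M := M) k)) = ⊤ := by
  have h : (Submodule.span ℂ (Set.range (evalAt (M := M) k))).dualCoannihilator = ⊥ := by
    rw [Submodule.eq_bot_iff]
    intro x hx
    rw [Submodule.mem_dualCoannihilator] at hx
    exact eq_zero_of_evalAt x fun φ => hx _ (Submodule.subset_span ⟨φ, rfl⟩)
  rw [← Subspace.dualCoannihilator_dualAnnihilator_eq
    (W := Submodule.span ℂ (Set.range (evalAt (M := M) k))), h, Submodule.dualAnnihilator_bot]

/-- The functional `v₁ ⋯ vₖ ↦ (1 / k!) ∑_σ ∏ gᵢ (v_σᵢ)`. -/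
noncomputable def splitAt (g : Fin k → Module.Dual ℂ M) : Module.Dual ℂ (SymPower k M) :=
  (k.factorial : ℂ)⁻¹ • ∑ T : Finset (Fin k), (-1 : ℂ) ^ (k - #T) • evalAt k (∑ i ∈ T, g i)

@[simp] lemma splitAt_powMk (g : Fin k → Module.Dual ℂ M) (u : M) :
    splitAt g (powMk k u) = ∏ i, g i u := by
  have h := polarization fun i => g i u
  have hne : (k.factorial : ℂ) ≠ 0 := by exact_mod_cast k.factorial_ne_zero
  simp only [splitAt, LinearMap.smul_apply, LinearMap.sum_apply, evalAt_powMk, smul_eq_mul]
  rw [h, ← mul_assoc, inv_mul_cancel₀ hne, one_mul]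

lemma splitAt_const (φ : Module.Dual ℂ M) : splitAt (fun _ : Fin k => φ) = evalAt k φ :=
  ext_powMk fun u => by simp

end Vale.Agent.P181
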