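import Vale.Agent.P181.Core
import Vale.Agent.P181.SymPower

/-!
# Foulkes' conjecture for `b ≥ (a - 1) ^ 2`
-/

open Finset

namespace Vale.Agent.P181

variable {a b : ℕ} {V : Type} [AddCommGroup V] [Module ℂ V]

/-- Evaluation at split functionals. -/
noncomputable def X (a b : ℕ) (V : Type) [AddCommGroup V] [Module ℂ V] :
    SymPower a (SymPower b V) →ₗ[ℂ] ((Fin b → Module.Dual ℂ V) → ℂ) :=
  LinearMap.pi fun h => evalAt a (splitAt h)

/-- Evaluation of the target at tuples of functionals. -/
noncomputable def J (a b : ℕ) (V : Type) [AddCommGroup V] [Module ℂ V] :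
    SymPower b (SymPower a V) →ₗ[ℂ] ((Fin b → Module.Dual ℂ V) → ℂ) :=
  LinearMap.pi fun h => splitAt fun k => evalAt a (h k)

lemma span_gen (a b : ℕ) (V : Type) [AddCommGroup V] [Module ℂ V] :
    Submodule.span ℂ (Set.range fun v : Fin a → V => prodMk fun i => powMk b (v i)) = ⊤ := by
  have h := span_prodMk (k := a) (span_powMk (k := b) (M := V))
  refine eq_top_iff.mpr (h.ge.trans (Submodule.span_mono ?_))
  rintro x ⟨w, hw, rfl⟩
  choose v hv using hw
  exact ⟨v, congrArg prodMk (funext hv)⟩

lemma ext_gen {P : Type} [AddCommGroup P] [Module ℂ P]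
    {F G : SymPower a (SymPower b V) →ₗ[ℂ] P}
    (h : ∀ v : Fin a → V, F (prodMk fun i => powMk b (v i)) = G (prodMk fun i => powMk b (v i))) :
    F = G :=
  LinearMap.ext_on_range (span_gen a b V) h

lemma X_gen (v : Fin a → V) (h : Fin b → Module.Dual ℂ V) :
    X a b V (prodMk fun i => powMk b (v i)) h = ∏ i, ∏ k, h k (v i) := by
  simp [X]

lemma J_gen (v : Fin a → V) (h : Fin b → Module.Dual ℂ V) :
    J a b V (powMk b (prodMk v)) h = ∏ k, ∏ i, h k (v i) := by
  simp [J]

lemma X_map (g : V →ₗ[ℂ] V) (x : SymPower a (SymPower b V)) (h : Fin b → Module.Dual ℂ V) :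
    X a b V (SymPower.map a (SymPower.map b g) x) h = X a b V x fun k => h k ∘ₗ g := by
  have : (LinearMap.proj h ∘ₗ X a b V) ∘ₗ SymPower.map a (SymPower.map b g) =
      LinearMap.proj (fun k => h k ∘ₗ g) ∘ₗ X a b V := ext_gen fun v => by
    simp [map_prodMk, map_powMk, X_gen]
  exact LinearMap.congr_fun this x

lemma J_map (g : V →ₗ[ℂ] V) (y : SymPower b (SymPower a V)) (h : Fin b → Module.Dual ℂ V) :
    J a b V (SymPower.map b (SymPower.map a g) y) h = J a b V y fun k => h k ∘ₗ g := by
  have hev : ∀ φ : Module.Dual ℂ V, evalAt a φ ∘ₗ SymPower.map a g = evalAt a (φ ∘ₗ g) :=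
    fun φ => ext_powMk fun u => by simp [map_powMk]
  have : (LinearMap.proj h ∘ₗ J a b V) ∘ₗ SymPower.map b (SymPower.map a g) =
      LinearMap.proj (fun k => h k ∘ₗ g) ∘ₗ J a b V := ext_powMk fun u => by
    simp only [LinearMap.comp_apply, LinearMap.proj_apply, J, LinearMap.pi_apply, map_powMk,
      splitAt_powMk, ← hev]
  exact LinearMap.congr_fun this y

variable [FiniteDimensional ℂ V]

theorem J_injective : Function.Injective (J a b V) := by
  rw [injective_iff_map_eq_zero]
  intro y hy
  refine eq_zero_of_evalAt y fun φ => ?_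
  rw [← splitAt_const]
  have hφ : ∀ _ : Fin b, φ ∈ Submodule.span ℂ (Set.range (evalAt (M := V) a)) := fun _ => by
    rw [span_evalAt]; trivial
  have h := slot_span (fun g : Fin b → Module.Dual ℂ (SymPower a V) => splitAt g y)
    (fun f i p q => ?_) (fun f i c p => ?_) (Set.range (evalAt (M := V) a)) ⊥ (fun f hf => ?_)
    (fun _ => φ) hφ
  · exact (Submodule.mem_bot ℂ).mp h
  · have : splitAt (Function.update f i (p + q)) =
        splitAt (Function.update f i p) + splitAt (Function.update f i q) := ext_powMk fun u => by
      simp only [LinearMap.add_apply, splitAt_powMk]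
      rw [← mul_prod_erase univ _ (mem_univ i), ← mul_prod_erase univ (fun j => Function.update f i p j u)
        (mem_univ i), ← mul_prod_erase univ (fun j => Function.update f i q j u) (mem_univ i)]
      simp only [Function.update_self, LinearMap.add_apply]
      rw [add_mul]
      congr 1 <;> congr 1 <;> exact prod_congr rfl fun j hj => by
        rw [Function.update_of_ne (ne_of_mem_erase hj), Function.update_of_ne (ne_of_mem_erase hj)]
    exact LinearMap.congr_fun this y
  · have : splitAt (Function.update f i (c • p)) = c • splitAt (Function.update f i p) :=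
      ext_powMk fun u => by
      simp only [LinearMap.smul_apply, splitAt_powMk]
      rw [← mul_prod_erase univ _ (mem_univ i), ← mul_prod_erase univ (fun j => Function.update f i p j u)
        (mem_univ i)]
      simp only [Function.update_self, LinearMap.smul_apply, smul_eq_mul]
      rw [mul_assoc]
      congr 2
      exact prod_congr rfl fun j hj => by
        rw [Function.update_of_ne (ne_of_mem_erase hj), Function.update_of_ne (ne_of_mem_erase hj)]
    exact LinearMap.congr_fun this y
  · choose h hh using hf
    rw [Submodule.mem_bot, show f = fun k => evalAt a (h k) from funext fun k => (hh k).symm]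
    exact congrFun hy h

/-- Functions of `a` vectors that are products of one functional over the vectors, spanned. -/
def R' (a : ℕ) (V : Type) [AddCommGroup V] [Module ℂ V] : Submodule ℂ ((Fin a → V) → ℂ) :=
  Submodule.span ℂ (Set.range fun φ : Module.Dual ℂ V => fun v : Fin a → V => ∏ i, φ (v i))

theorem X_injective (hb : (a - 1) ^ 2 ≤ b) : Function.Injective (X a b V) := by
  rw [injective_iff_map_eq_zero]
  intro x hx
  refine eq_zero_of_evalAt x fun f => ?_
  -- restriction of functionals to the generators
  let res : Module.Dual ℂ (SymPower a (SymPower b V)) →ₗ[ℂ] ((Fin a → V) → ℂ) :=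
    { toFun := fun F v => F (prodMk fun i => powMk b (v i))
      map_add' := fun _ _ => rfl
      map_smul' := fun _ _ => rfl }
  have hres : Function.Injective res := fun F G h => ext_gen (congrFun h)
  have hR : R' a V ^ b ≤ Submodule.map res
      (Submodule.span ℂ (Set.range fun h : Fin b → Module.Dual ℂ V => evalAt a (splitAt h))) := by
    rw [R', Submodule.span_pow, Submodule.span_le]
    intro G hG
    obtain ⟨p, rfl⟩ := Set.mem_pow.mp hG
    choose h hh using fun k => (p k).2
    refine ⟨evalAt a (splitAt h), Submodule.subset_span ⟨h, rfl⟩, ?_⟩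
    funext v
    simp only [res, LinearMap.coe_mk, AddHom.coe_mk, evalAt_prodMk, splitAt_powMk, List.prod_ofFn,
      Finset.prod_apply, ← hh]
    exact prod_comm
  have hmem : res (evalAt a f) ∈ R' a V ^ b := by
    have hsp : f ∈ Submodule.span ℂ (Set.range (evalAt (M := V) b)) := by
      rw [span_evalAt]; trivial
    have htens := slot_span
      (fun g : Fin a → Module.Dual ℂ (SymPower b V) =>
        (fun v : Fin a → V => ∑ σ : Equiv.Perm (Fin a), ∏ i, g i (powMk b (v (σ i)))))
      (fun g i p q => ?_) (fun g i c p => ?_) (Set.range (evalAt (M := V) b)) (R' a V ^ b)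
      (fun g hg => ?_) (fun _ => f) fun _ => hsp
    · have heq : (fun v : Fin a → V => ∑ σ : Equiv.Perm (Fin a), ∏ i, f (powMk b (v (σ i)))) =
          ((a.factorial : ℂ)) • res (evalAt a f) := by
        funext v
        simp only [res, LinearMap.coe_mk, AddHom.coe_mk, Pi.smul_apply, evalAt_prodMk, smul_eq_mul]
        rw [sum_congr rfl fun σ _ => Equiv.prod_comp σ fun i => f (powMk b (v i)), sum_const,
          card_univ, Fintype.card_perm, Fintype.card_fin, nsmul_eq_mul]
      rw [heq] at htens
      exact (Submodule.smul_mem_iff _ (by exact_mod_cast a.factorial_ne_zero)).mp htens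
    · funext v
      simp only [Pi.add_apply, ← sum_add_distrib]
      refine sum_congr rfl fun σ _ => ?_
      rw [← mul_prod_erase univ _ (mem_univ i), ← mul_prod_erase univ
        (fun j => Function.update g i p j (powMk b (v (σ j)))) (mem_univ i), ← mul_prod_erase univ
        (fun j => Function.update g i q j (powMk b (v (σ j)))) (mem_univ i)]
      simp only [Function.update_self, LinearMap.add_apply]
      rw [add_mul]
      congr 1 <;> congr 1 <;> exact prod_congr rfl fun j hj => by
        rw [Function.update_of_ne (ne_of_mem_erase hj), Function.update_of_ne (ne_of_mem_erase hj)]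
    · funext v
      simp only [Pi.smul_apply, smul_eq_mul, mul_sum]
      refine sum_congr rfl fun σ _ => ?_
      rw [← mul_prod_erase univ _ (mem_univ i), ← mul_prod_erase univ
        (fun j => Function.update g i p j (powMk b (v (σ j)))) (mem_univ i)]
      simp only [Function.update_self, LinearMap.smul_apply, smul_eq_mul]
      rw [mul_assoc]
      congr 2
      exact prod_congr rfl fun j hj => by
        rw [Function.update_of_ne (ne_of_mem_erase hj), Function.update_of_ne (ne_of_mem_erase hj)]
    · choose h hh using hg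
      let L : (Fin a → V) → Fin a → Fin a → ℂ := fun v i j => h j (v i)
      let pull : ((Fin a → Fin a → ℂ) → ℂ) →ₐ[ℂ] ((Fin a → V) → ℂ) :=
        { toFun := fun G v => G (L v)
          map_one' := rfl
          map_mul' := fun _ _ => rfl
          map_zero' := rfl
          map_add' := fun _ _ => rfl
          commutes' := fun _ => rfl }
      have h1 : (Core.R a a ^ b).map pull.toLinearMap ≤ R' a V ^ b := by
        rw [Submodule.map_pow]
        refine pow_le_pow_left' ?_ b
        rw [Core.R, Submodule.map_span, Submodule.span_le]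
        rintro _ ⟨_, ⟨c, rfl⟩, rfl⟩
        refine Submodule.subset_span ⟨∑ j, c j • h j, ?_⟩
        funext v
        show (∏ i, (∑ j, c j • h j) (v i)) = ∏ i, ∑ j, c j * h j (v i)
        simp [LinearMap.sum_apply]
      have h2 := h1 (Submodule.mem_map_of_mem (Core.permanent_mem hb))
      convert h2 using 1
      funext v
      show (∑ σ : Equiv.Perm (Fin a), ∏ i, g i (powMk b (v (σ i)))) =
        ∑ σ : Equiv.Perm (Fin a), ∏ i, h i (v (σ i)) ^ b
      simp [← hh]
  obtain ⟨F, hF, hFf⟩ := hR hmem
  rw [← hres hFf]
  clear hFf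
  induction hF using Submodule.span_induction with
  | mem F hF => obtain ⟨h, rfl⟩ := hF; exact congrFun hx h
  | zero => rfl
  | add p q _ _ hp hq => rw [LinearMap.add_apply, hp, hq, add_zero]
  | smul c p _ hp => rw [LinearMap.smul_apply, hp, smul_zero]

omit [FiniteDimensional ℂ V] in
theorem range_X_le : LinearMap.range (X a b V) ≤ LinearMap.range (J a b V) := by
  rw [LinearMap.range_eq_map, ← span_gen a b V, Submodule.map_span, Submodule.span_le]
  rintro _ ⟨_, ⟨v, rfl⟩, rfl⟩
  exact ⟨powMk b (prodMk v), funext fun h => by rw [J_gen, X_gen]; exact prod_comm⟩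

/-- **Foulkes' conjecture for `b ≥ (a - 1) ^ 2`.** -/
theorem foulkes (hb : (a - 1) ^ 2 ≤ b) :
    ∃ Φ : SymPower a (SymPower b V) →ₗ[ℂ] SymPower b (SymPower a V), Function.Injective Φ ∧
      ∀ g : V →ₗ[ℂ] V, Φ ∘ₗ SymPower.map a (SymPower.map b g) =
        SymPower.map b (SymPower.map a g) ∘ₗ Φ := by
  let eJ := LinearEquiv.ofInjective (J a b V) J_injective
  let Φ : SymPower a (SymPower b V) →ₗ[ℂ] SymPower b (SymPower a V) :=
    eJ.symm.toLinearMap ∘ₗ (X a b V).codRestrict (LinearMap.range (J a b V))
      fun x => range_X_le (LinearMap.mem_range_self _ x)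
  have hΦ : ∀ x, J a b V (Φ x) = X a b V x := fun x =>
    congrArg Subtype.val (eJ.apply_symm_apply
      ⟨X a b V x, range_X_le (LinearMap.mem_range_self _ x)⟩)
  refine ⟨Φ, fun x y hxy => X_injective hb (by rw [← hΦ, ← hΦ, hxy]), fun g => ?_⟩
  refine LinearMap.ext fun x => J_injective (funext fun h => ?_)
  show J a b V (Φ (SymPower.map a (SymPower.map b g) x)) h =
    J a b V (SymPower.map b (SymPower.map a g) (Φ x)) h
  rw [hΦ, X_map, J_map, hΦ]

end Vale.Agent.P181
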