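import Mathlib

/-!
# Polarization and multilinear spans
-/

open Finset

namespace Vale.Agent.P181

/-- The inclusion-exclusion polarization identity. -/
theorem polarization {A : Type*} [CommRing A] {b : ℕ} (v : Fin b → A) :
    ∑ T : Finset (Fin b), (-1 : A) ^ (b - #T) * (∑ k ∈ T, v k) ^ b =
      (b.factorial : A) * ∏ k, v k := by
  classical
  have h1 : ∀ T : Finset (Fin b), (∑ k ∈ T, v k) ^ b =
      ∑ j : Fin b → Fin b, if (univ.image j) ⊆ T then ∏ i, v (j i) else 0 := by
    intro T
    rw [Finset.sum_pow' T v b, ← sum_filter]
    refine sum_congr ?_ fun _ _ => rfl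
    ext j
    simp [image_subset_iff]
  simp only [h1, mul_sum, mul_ite, mul_zero]
  rw [sum_comm]
  have h2 : ∀ j : Fin b → Fin b,
      (∑ T : Finset (Fin b), if univ.image j ⊆ T then (-1 : A) ^ (b - #T) * ∏ i, v (j i) else 0) =
        if Function.Bijective j then ∏ i, v i else 0 := by
    intro j
    have h3 : (∑ T : Finset (Fin b), if univ.image j ⊆ T then
        (-1 : A) ^ (b - #T) * ∏ i, v (j i) else 0) =
        (∑ U ∈ (univ.image j)ᶜ.powerset, (-1 : A) ^ #U) * ∏ i, v (j i) := by
      rw [sum_mul, ← sum_filter]
      refine sum_bij' (fun T _ => Tᶜ) (fun U _ => Uᶜ) ?_ ?_ ?_ ?_ ?_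
      · intro T hT
        simp only [mem_filter, mem_univ, true_and] at hT
        simp only [mem_powerset]
        exact compl_subset_compl.mpr hT
      · intro U hU
        simp only [mem_powerset] at hU
        simp only [mem_filter, mem_univ, true_and]
        simpa using compl_subset_compl.mpr hU
      · simp
      · simp
      · intro T _
        rw [card_compl, Fintype.card_fin]
    rw [h3]
    have h4 : (∑ U ∈ (univ.image j)ᶜ.powerset, (-1 : A) ^ #U) =
        if (univ.image j)ᶜ = ∅ then 1 else 0 := by
      have := congrArg (Int.cast : ℤ → A) (sum_powerset_neg_one_pow_card (x := (univ.image j)ᶜ))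
      push_cast at this
      exact this
    rw [h4]
    by_cases hj : Function.Bijective j
    · rw [if_pos (by simp [image_univ_of_surjective hj.2]), if_pos hj, one_mul]
      exact (Equiv.ofBijective j hj).prod_comp v
    · rw [if_neg, if_neg hj, zero_mul]
      intro h
      refine hj (Finite.surjective_iff_bijective.mp fun y => ?_)
      have hy : y ∈ univ.image j := by
        by_contra hy
        have := mem_compl.mpr hy
        rw [h] at this
        simp at this
      obtain ⟨x, -, hx⟩ := mem_image.mp hy
      exact ⟨x, hx⟩
  rw [sum_congr rfl fun j _ => h2 j, ← sum_filter, sum_const, nsmul_eq_mul]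
  congr 1
  have h5 : #(univ.filter fun j : Fin b → Fin b => Function.Bijective j) =
      Fintype.card (Equiv.Perm (Fin b)) := by
    rw [← Fintype.card_subtype]
    exact Fintype.card_congr
      { toFun := fun j => Equiv.ofBijective j.1 j.2
        invFun := fun σ => ⟨σ, σ.bijective⟩
        left_inv := fun j => Subtype.ext rfl
        right_inv := fun σ => Equiv.ext fun _ => rfl }
  rw [h5, Fintype.card_perm, Fintype.card_fin]

variable {A : Type*} [CommRing A] [Algebra ℂ A]

/-- A product of `b` elements is a combination of `b`-th powers of their sums. -/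
theorem prod_mem_span_pow (W : Submodule ℂ A) {b : ℕ} (v : Fin b → A) (hv : ∀ k, v k ∈ W) :
    ∏ k, v k ∈ Submodule.span ℂ ((fun u => u ^ b) '' (W : Set A)) := by
  have hne : (b.factorial : ℂ) ≠ 0 := by exact_mod_cast b.factorial_ne_zero
  have h : ∏ k, v k = (b.factorial : ℂ)⁻¹ •
      ∑ T : Finset (Fin b), (-1 : ℂ) ^ (b - #T) • (∑ k ∈ T, v k) ^ b := by
    have hp := polarization v
    simp only [Algebra.smul_def, map_pow, map_neg, map_one]
    rw [hp, ← map_natCast (algebraMap ℂ A), ← mul_assoc, ← map_mul, inv_mul_cancel₀ hne, map_one,
      one_mul]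
  rw [h]
  exact Submodule.smul_mem _ _ (sum_mem fun T _ => Submodule.smul_mem _ _
    (Submodule.subset_span ⟨_, sum_mem fun k _ => hv k, rfl⟩))

/-- A power of a submodule is spanned by the powers of its elements. -/
theorem pow_le_span_pow (W : Submodule ℂ A) (b : ℕ) :
    W ^ b ≤ Submodule.span ℂ ((fun u => u ^ b) '' (W : Set A)) := by
  rw [Submodule.pow_eq_span_pow_set, Submodule.span_le]
  intro x hx
  obtain ⟨f, rfl⟩ := Set.mem_pow.mp hx
  rw [List.prod_ofFn]
  exact prod_mem_span_pow W _ fun k => (f k).2

/-- A product of elements lies in the corresponding power. -/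
theorem prod_mem_pow {ι : Type*} (W : Submodule ℂ A) (s : Finset ι) (f : ι → A)
    (hf : ∀ i ∈ s, f i ∈ W) : ∏ i ∈ s, f i ∈ W ^ #s := by
  classical
  induction s using Finset.induction_on with
  | empty =>
    rw [prod_empty, card_empty, pow_zero]
    exact Submodule.one_le.mp le_rfl
  | insert i s hi ih =>
    rw [prod_insert hi, card_insert_of_notMem hi, pow_succ']
    exact Submodule.mul_mem_mul (hf i (mem_insert_self _ _))
      (ih fun j hj => hf j (mem_insert_of_mem hj))

/-- A map linear in each slot sends tuples from spans into the span of the values on generators. -/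
theorem slot_span {ι X Y : Type*} [Fintype ι] [DecidableEq ι] [AddCommGroup X] [Module ℂ X]
    [AddCommGroup Y] [Module ℂ Y] (F : (ι → X) → Y)
    (hadd : ∀ f i x y, F (Function.update f i (x + y)) =
      F (Function.update f i x) + F (Function.update f i y))
    (hsmul : ∀ f i (c : ℂ) x, F (Function.update f i (c • x)) = c • F (Function.update f i x))
    (S : Set X) (P : Submodule ℂ Y) (hP : ∀ f, (∀ i, f i ∈ S) → F f ∈ P)
    (f : ι → X) (hf : ∀ i, f i ∈ Submodule.span ℂ S) : F f ∈ P := by
  have key : ∀ (s : Finset ι) (f : ι → X), (∀ i ∈ s, f i ∈ Submodule.span ℂ S) →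
      (∀ i, i ∉ s → f i ∈ S) → F f ∈ P := by
    intro s
    induction s using Finset.induction_on with
    | empty => exact fun f _ h => hP f fun i => h i (notMem_empty i)
    | insert i₀ s hi ih =>
      intro f h1 h2
      have : ∀ x ∈ Submodule.span ℂ S, F (Function.update f i₀ x) ∈ P := by
        intro x hx
        induction hx using Submodule.span_induction with
        | mem x hx =>
          refine ih _ (fun i his => ?_) fun i his => ?_
          · rw [Function.update_of_ne (ne_of_mem_of_not_mem his hi)]
            exact h1 i (mem_insert_of_mem his)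
          · by_cases h : i = i₀
            · subst h; rwa [Function.update_self]
            · rw [Function.update_of_ne h]
              exact h2 i (by simp [h, his])
        | zero =>
          have := hsmul f i₀ 0 0
          rw [zero_smul, zero_smul] at this
          rw [this]
          exact zero_mem _
        | add x y _ _ hx hy => rw [hadd]; exact add_mem hx hy
        | smul c x _ hx => rw [hsmul]; exact P.smul_mem c hx
      have h3 := this (f i₀) (h1 i₀ (mem_insert_self _ _))
      rwa [Function.update_eq_self] at h3
  exact key univ f (fun i _ => hf i) fun i hi => absurd (mem_univ i) hi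

end Vale.Agent.P181
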